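import Vale.Agent.P284.H213.Grp.NormS
import Vale.Agent.P284.H221.SigS
import Vale.Agent.P284.H894.W.Spec2

/-!
# P284 (helper213), final group assembly: interface statements

`MainSCD` is the theorem for the group of a simply connected covering, `MainPiD` the one for the
fundamental group: `X` compact Kähler, with homogeneous coordinates `PJ` (smooth projective), dominated
(`Dom`), with fundamental group of subexponential growth ==> the fundamental group is virtually abelian.

Inputs: `AlbUStmt` (Albanese data of maximal rank), `MFStmt` (generic fibres are connected), `CovStmt`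
(quotient coverings), `CoreStmt` (no normalised data).
-/

open scoped Manifold ContDiff Topology Pointwise ComplexConjugate ComplexOrder
open Filter Set Metric MeasureTheory

noncomputable section

namespace Vale.Agent.P284.H213.Grp

open Vale.Agent.P272.K Vale.Agent.P284.H248 Vale.Agent.P284.H894 Vale.Agent.P284.H894.G
  Vale.Agent.P284.H894.V Vale.Agent.P284.H894.W Vale.Agent.P284.H998 Vale.Agent.P284.H221

/-- The generic fibre of `F : E → ℂ^q` is connected and regular. -/
def GenConn {n : ℕ} {X : Type} [TopologicalSpace X] [ChartedSpace (Cm n) X] {E : Type}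
    [TopologicalSpace E] (p : E → X) {q : ℕ} (F : E → Cm q) : Prop :=
  ∃ T : Set (Cm q), IsClosed T ∧ interior T = ∅ ∧
    ∀ t ∉ T, IsConnected (F ⁻¹' {t}) ∧ ∀ y, F y = t → Reg (n := n) p F y

/-- **ALB+U**: the Albanese data exist, with a regular point. -/
def AlbUStmt : Prop :=
  ∀ (n N : ℕ) (X : Type) [TopologicalSpace X] [T2Space X] [CompactSpace X] [ConnectedSpace X]
    [ChartedSpace (Cm n) X] [IsManifold 𝓘(ℂ, Cm n) ω X] (ι : Type) [Fintype ι] (_ : PJ n X ι)
    (_ : Dom N n X) (w : Chart n X → Cm n → Matrix (Fin n) (Fin n) ℂ), IsKahler w →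
    ∀ (E Γ : Type) [TopologicalSpace E] [SimplyConnectedSpace E] [Group Γ] [MulAction Γ E]
      (p : E → X), IsGalois Γ p → SubexpGrowth Γ →
    ∃ (G K : Subgroup Γ) (q : ℕ) (F : E → Cm q) (c : Γ → Cm q), Alb p w G K F c ∧
      ∃ y, Reg (n := n) p F y

/-- **MF**: for every equivariant map to `ℂ^q` with lattice periods, of rank `q` somewhere, the generic
fibre is connected. -/
def MFStmt : Prop :=
  ∀ (n N : ℕ) (X : Type) [TopologicalSpace X] [T2Space X] [CompactSpace X] [ConnectedSpace X]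
    [ChartedSpace (Cm n) X] [IsManifold 𝓘(ℂ, Cm n) ω X] (ι : Type) [Fintype ι] (_ : PJ n X ι)
    (_ : Dom N n X) (w : Chart n X → Cm n → Matrix (Fin n) (Fin n) ℂ), IsKahler w →
    ∀ (E Γ : Type) [TopologicalSpace E] [ConnectedSpace E] [Group Γ] [MulAction Γ E]
      (p : E → X), IsGalois Γ p →
    ∀ (q : ℕ) (F : E → Cm q) (c : Γ → Cm q), (∃ B, HolB p w F B) → (∀ g y, F (g • y) = F y + c g) →
      LatChar Γ q c → (∃ y, Reg (n := n) p F y) → GenConn (n := n) p F

/-- **COV**: the covering `E₁ = E / M` of `X₁ = E / G`, with group `G ⧸ M`. -/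
def CovStmt : Prop :=
  ∀ (n N : ℕ) (X : Type) [TopologicalSpace X] [T2Space X] [CompactSpace X] [ConnectedSpace X]
    [ChartedSpace (Cm n) X] [IsManifold 𝓘(ℂ, Cm n) ω X] (ι : Type) [Fintype ι] (_ : PJ n X ι)
    (_ : Dom N n X) (w : Chart n X → Cm n → Matrix (Fin n) (Fin n) ℂ), IsKahler w →
    ∀ (E Γ : Type) [TopologicalSpace E] [ConnectedSpace E] [Group Γ] [MulAction Γ E]
      (p : E → X), IsGalois Γ p →
    ∀ (G : Subgroup Γ), G.FiniteIndex → ∀ (M : Subgroup G) (_ : M.Normal),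
    ∃ (X₁ : Type) (_ : TopologicalSpace X₁) (_ : T2Space X₁) (_ : CompactSpace X₁)
      (_ : ConnectedSpace X₁) (_ : ChartedSpace (Cm n) X₁) (_ : IsManifold 𝓘(ℂ, Cm n) ω X₁)
      (_ : PJ n X₁ ι) (_ : Dom N n X₁)
      (w₁ : Chart n X₁ → Cm n → Matrix (Fin n) (Fin n) ℂ) (_ : IsKahler w₁)
      (E₁ : Type) (_ : TopologicalSpace E₁) (_ : ConnectedSpace E₁) (_ : MulAction (G ⧸ M) E₁)
      (p₁ : E₁ → X₁) (_ : IsGalois (G ⧸ M) p₁) (π : E → E₁),
      Continuous π ∧ Function.Surjective π ∧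
      (∀ (g : G) (y : E), π ((g : Γ) • y) = (g : G ⧸ M) • π y) ∧
      ∀ (q : ℕ) (F : E → Cm q) (B : ℝ), HolB p w F B →
        (∀ m ∈ M, ∀ y, F (((m : G) : Γ) • y) = F y) →
        ∃ F₁ : E₁ → Cm q, (∀ y, F₁ (π y) = F y) ∧ HolB p₁ w₁ F₁ B ∧
          ∀ y, Reg (n := n) p F y → Reg (n := n) p₁ F₁ (π y)

/-- **CORE**: there are no normalised data on a dominated projective manifold. -/
def CoreStmt : Prop :=
  ∀ (n N : ℕ) (X : Type) [TopologicalSpace X] [T2Space X] [CompactSpace X] [ConnectedSpace X]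
    [ChartedSpace (Cm n) X] [IsManifold 𝓘(ℂ, Cm n) ω X] (ι : Type) [Fintype ι] (_ : PJ n X ι)
    (_ : Dom N n X) (w : Chart n X → Cm n → Matrix (Fin n) (Fin n) ℂ), IsKahler w →
    ∀ (E Γ : Type) [TopologicalSpace E] [ConnectedSpace E] [Group Γ] [MulAction Γ E]
      (p : E → X), IsGalois Γ p → SubexpGrowth Γ →
    ∀ (q : ℕ) (F : E → Cm q) (c : Γ → Cm q) (K : Subgroup Γ), (∃ B, HolB p w F B) →
      (∀ g y, F (g • y) = F y + c g) → (∃ y, Reg (n := n) p F y) → GenConn (n := n) p F →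
      NPkg Γ q c K → False

/-- the theorem for the group of a simply connected covering -/
def MainSCD : Prop :=
  ∀ (n N : ℕ) (X : Type) [TopologicalSpace X] [T2Space X] [CompactSpace X] [ConnectedSpace X]
    [ChartedSpace (Cm n) X] [IsManifold 𝓘(ℂ, Cm n) ω X] (ι : Type) [Fintype ι] (_ : PJ n X ι)
    (_ : Dom N n X) (w : Chart n X → Cm n → Matrix (Fin n) (Fin n) ℂ), IsKahler w →
    ∀ (E Γ : Type) [TopologicalSpace E] [SimplyConnectedSpace E] [Group Γ] [MulAction Γ E]
      (p : E → X), IsGalois Γ p → SubexpGrowth Γ → VirtuallyAbelian Γ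

/-- the theorem for the fundamental group -/
def MainPiD : Prop :=
  ∀ (n N : ℕ) (X : Type) [TopologicalSpace X] [T2Space X] [CompactSpace X] [ConnectedSpace X]
    [ChartedSpace (Cm n) X] [IsManifold 𝓘(ℂ, Cm n) ω X] (ι : Type) [Fintype ι] (_ : PJ n X ι)
    (_ : Dom N n X) (w : Chart n X → Cm n → Matrix (Fin n) (Fin n) ℂ), IsKahler w →
    ∀ x : X, SubexpGrowth (FundamentalGroup X x) → VirtuallyAbelian (FundamentalGroup X x)

end Vale.Agent.P284.H213.Grp
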