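import Vale.Agent.P284.H213.Grp.NormS
import Vale.Agent.P284.H731.Grp
import Mathlib.GroupTheory.Schreier
import Mathlib.GroupTheory.Commutator.Basic

/-!
# P284 (helper213), module NORM: lemmas
-/

open Function

set_option linter.all false

noncomputable section

namespace Vale.Agent.P284.H213.Grp

open Vale.Agent.P272.K Vale.Agent.P284.H894.V

/-- finitely many left cosets cover -/
theorem fi_of_cover {Γ : Type*} [Group Γ] {H P : Subgroup Γ} {F : Set Γ} (hF : F.Finite)
    (h : ∀ g ∈ P, ∃ f ∈ F, f⁻¹ * g ∈ H) : (H.subgroupOf P).FiniteIndex := by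
  classical
  have : Finite F := hF
  let φ : F → P ⧸ (H.subgroupOf P) := fun f =>
    if hf : ∃ g : P, (f : Γ)⁻¹ * g ∈ H then QuotientGroup.mk hf.choose else QuotientGroup.mk 1
  have hφ : Surjective φ := by
    intro x
    obtain ⟨g, rfl⟩ := QuotientGroup.mk_surjective x
    obtain ⟨f, hf, hfg⟩ := h g g.2
    refine ⟨⟨f, hf⟩, ?_⟩
    have hex : ∃ g : P, ((⟨f, hf⟩ : F) : Γ)⁻¹ * g ∈ H := ⟨g, hfg⟩
    simp only [φ, dif_pos hex]
    rw [QuotientGroup.eq, Subgroup.mem_subgroupOf]
    have h1 := hex.choose_spec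
    have h2 := H.mul_mem (H.inv_mem h1) hfg
    simpa [mul_assoc] using h2
  have : Finite (P ⧸ (H.subgroupOf P)) := Finite.of_surjective φ hφ
  exact Subgroup.finiteIndex_of_finite_quotient

theorem cover_of_fi {Γ : Type*} [Group Γ] {H P : Subgroup Γ}
    (h : (H.subgroupOf P).FiniteIndex) :
    ∃ F : Set Γ, F.Finite ∧ (∀ f ∈ F, f ∈ P) ∧ ∀ g ∈ P, ∃ f ∈ F, f⁻¹ * g ∈ H := by
  classical
  have : Finite (P ⧸ (H.subgroupOf P)) := by
    haveI := h
    exact inferInstance
  let F : Set Γ := Set.range fun x : P ⧸ (H.subgroupOf P) => ((Quotient.out x : P) : Γ)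
  refine ⟨F, Set.finite_range _, ?_, fun g hg => ?_⟩
  · rintro _ ⟨x, rfl⟩
    exact (Quotient.out x : P).2
  refine ⟨_, ⟨QuotientGroup.mk (⟨g, hg⟩ : P), rfl⟩, ?_⟩
  have h1 : (QuotientGroup.mk (Quotient.out (QuotientGroup.mk (⟨g, hg⟩ : P) :
      P ⧸ (H.subgroupOf P))) : P ⧸ (H.subgroupOf P)) = QuotientGroup.mk ⟨g, hg⟩ :=
    Quotient.out_eq' _
  rw [QuotientGroup.eq, Subgroup.mem_subgroupOf] at h1
  exact h1

/-- an infinite finitely generated group with a commutative subgroup of finite index is virtually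
indicable -/
theorem virtInd_of_comm {G : Type*} [Group G] [Group.FG G] [Infinite G] (H : Subgroup G)
    (hH : H.FiniteIndex) (hc : ∀ x ∈ H, ∀ y ∈ H, x * y = y * x) : VirtIndicable G := by
  classical
  haveI := hH
  have hfg : Group.FG H := Subgroup.fg_of_index_ne_zero H
  have hinf : Infinite H := by
    by_contra hfin
    rw [not_infinite_iff_finite] at hfin
    have hq : Finite (G ⧸ H) := inferInstance
    have : Finite G := Finite.of_equiv _ (Subgroup.groupEquivQuotientProdSubgroup (s := H)).symm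
    exact not_finite G
  letI : CommGroup H := { (inferInstance : Group H) with
    mul_comm := fun a b => Subtype.ext (hc a a.2 b b.2) }
  obtain ⟨φ, hφ⟩ := H731.exists_surj_int H hfg hinf
  exact ⟨H, hH, φ, hφ⟩

theorem virtInd_congr {G Q : Type*} [Group G] [Group Q] (e : G ≃* Q) (h : VirtIndicable Q) :
    VirtIndicable G := H731.VirtIndicable.of_surj e.toMonoidHom e.surjective h

section zorn
variable {Γ : Type} [Group Γ]

/-- **Zorn**: a maximal normal subgroup of infinite index in the finitely generated subgroup `K`. -/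
theorem exists_max (K : Subgroup Γ) (hfg : Group.FG K) (hinf : Infinite K) :
    ∃ M : Subgroup Γ, M.Normal ∧ M ≤ K ∧ ¬ (M.subgroupOf K).FiniteIndex ∧
      ∀ M' : Subgroup Γ, M'.Normal → M ≤ M' → M' ≤ K → M' ≠ M → (M'.subgroupOf K).FiniteIndex := by
  classical
  let S : Set (Subgroup Γ) := {M | M.Normal ∧ M ≤ K ∧ ¬ (M.subgroupOf K).FiniteIndex}
  have hbot : (⊥ : Subgroup Γ) ∈ S := by
    refine ⟨inferInstance, bot_le, fun h => ?_⟩
    rw [Subgroup.bot_subgroupOf] at h
    have h1 := h.index_ne_zero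
    rw [Subgroup.index_bot] at h1
    exact h1 Nat.card_eq_zero_of_infinite
  have hchain : ∀ C ⊆ S, IsChain (· ≤ ·) C → ∀ y ∈ C, ∃ ub ∈ S, ∀ z ∈ C, z ≤ ub := by
    intro C hC hch y hy
    have hne : C.Nonempty := ⟨y, hy⟩
    have hdir : DirectedOn (· ≤ ·) C := hch.directedOn
    have hmem : ∀ x, x ∈ sSup C ↔ ∃ M ∈ C, x ∈ M := fun x =>
      Subgroup.mem_sSup_of_directedOn hne hdir
    refine ⟨sSup C, ⟨?_, ?_, ?_⟩, fun z hz => le_sSup hz⟩
    · constructor
      intro x hx g
      obtain ⟨M, hM, hxM⟩ := (hmem x).1 hx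
      exact (hmem _).2 ⟨M, hM, (hC hM).1.conj_mem x hxM g⟩
    · exact sSup_le fun M hM => (hC hM).2.1
    · intro hfi
      haveI := hfi
      haveI := hfg
      have h1 : ((sSup C).subgroupOf K).FG :=
        (Group.fg_iff_subgroup_fg _).1 (Subgroup.fg_of_index_ne_zero _)
      obtain ⟨T, hT⟩ := h1
      -- one member of the chain contains the generators
      have h2 : ∀ T' : Finset K, (∀ t ∈ T', (t : Γ) ∈ sSup C) → ∃ M ∈ C, ∀ t ∈ T', (t : Γ) ∈ M := by
        intro T'
        induction T' using Finset.induction_on with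
        | empty => intro _; exact ⟨y, hy, fun t ht => absurd ht (Finset.notMem_empty t)⟩
        | insert a T' ha ih =>
          intro h
          obtain ⟨M, hM, h3⟩ := ih fun t ht => h t (Finset.mem_insert_of_mem ht)
          obtain ⟨M', hM', h4⟩ := (hmem _).1 (h a (Finset.mem_insert_self _ _))
          obtain ⟨M'', hM'', h5, h6⟩ := hdir M hM M' hM'
          refine ⟨M'', hM'', fun t ht => ?_⟩
          rcases Finset.mem_insert.1 ht with rfl | ht
          · exact h6 h4
          · exact h5 (h3 t ht)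
      obtain ⟨M, hM, h3⟩ := h2 T fun t ht => by
        have : t ∈ Subgroup.closure (T : Set K) := Subgroup.subset_closure ht
        rw [hT] at this
        exact this
      apply (hC hM).2.2
      have h4 : (sSup C).subgroupOf K ≤ M.subgroupOf K := by
        rw [← hT, Subgroup.closure_le]
        intro t ht
        exact h3 t ht
      exact Subgroup.finiteIndex_of_le h4
  obtain ⟨M, -, hM⟩ := zorn_le_nonempty₀ S hchain ⊥ hbot
  refine ⟨M, hM.prop.1, hM.prop.2.1, hM.prop.2.2, fun M' h1 h2 h3 h4 => ?_⟩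
  by_contra h5
  exact h4 (le_antisymm (hM.le_of_ge ⟨h1, h3, h5⟩ h2) h2)

end zorn

end Vale.Agent.P284.H213.Grp
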