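import Vale.Agent.P284.H213.Grp.NormS
import Mathlib.Analysis.Normed.Module.FiniteDimension
import Mathlib.LinearAlgebra.Basis.VectorSpace
import Mathlib.Algebra.Order.Floor.Ring

/-!
# P284 (helper213), module NORM: quotients of the lattice
-/

open Function

set_option linter.all false

noncomputable section

namespace Vale.Agent.P284.H213.Grp

open Vale.Agent.P272.K Vale.Agent.P284.H894.V

variable {Γ : Type*} [Group Γ] {q : ℕ} {c : Γ → Cm q}

namespace LatChar

lemma map_one (h : LatChar Γ q c) : c 1 = 0 := by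
  have := h.add 1 1
  rw [one_mul] at this
  exact (left_eq_add.1 this)

lemma map_inv (h : LatChar Γ q c) (g : Γ) : c g⁻¹ = - c g := by
  have := h.add g g⁻¹
  rw [mul_inv_cancel, h.map_one] at this
  exact (neg_eq_of_add_eq_zero_right this.symm).symm

lemma map_zpow (h : LatChar Γ q c) (g : Γ) (k : ℤ) : c (g ^ k) = (k : ℝ) • c g := by
  have hn : ∀ k : ℕ, c (g ^ k) = (k : ℝ) • c g := by
    intro k
    induction k with
    | zero => simp [h.map_one]
    | succ k ih => rw [pow_succ, h.add, ih]; push_cast; rw [add_smul, one_smul]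
  obtain ⟨k, rfl | rfl⟩ := k.eq_nat_or_neg
  · simpa using hn k
  · rw [zpow_neg, h.map_inv, zpow_natCast, hn]; simp

/-- the kernel -/
def ker (h : LatChar Γ q c) : Subgroup Γ where
  carrier := {g | c g = 0}
  mul_mem' := by intro a b ha hb; show c (a * b) = 0; rw [h.add, ha, hb, add_zero]
  one_mem' := h.map_one
  inv_mem' := by intro a ha; show c a⁻¹ = 0; rw [h.map_inv, ha, neg_zero]

lemma mem_ker (h : LatChar Γ q c) {g : Γ} : g ∈ h.ker ↔ c g = 0 := Iff.rfl

lemma conj (h : LatChar Γ q c) (g x : Γ) : c (g * x * g⁻¹) = c x := by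
  rw [h.add, h.add, h.map_inv]; abel

lemma ker_normal (h : LatChar Γ q c) : h.ker.Normal :=
  ⟨fun x hx g => by show c (g * x * g⁻¹) = 0; rw [h.conj]; exact hx⟩

/-- a subspace spanned by periods of `D`: every vector of `W` is at bounded distance from such periods -/
lemma near (h : LatChar Γ q c) (D : Subgroup Γ) (W : Submodule ℝ (Cm q))
    (hW : ∀ v ∈ W, v ∈ Submodule.span ℝ ({v | ∃ g ∈ D, c g = v} ∩ (W : Set (Cm q)))) :
    ∃ C : ℝ, 0 ≤ C ∧ ∀ w ∈ W, ∃ d ∈ D, c d ∈ W ∧ ‖w - c d‖ ≤ C := by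
  classical
  set S : Set (Cm q) := {v | ∃ g ∈ D, c g = v} ∩ (W : Set (Cm q)) with hS
  obtain ⟨b, hbS, hbspan, hli⟩ := exists_linearIndependent ℝ S
  have hfin : b.Finite := by
    have := hli.finite
    exact Set.toFinite b
  have : Fintype b := hfin.fintype
  have hd : ∀ x : b, ∃ g ∈ D, c g = (x : Cm q) := fun x => (hbS x.2).1
  choose d hdD hdc using hd
  refine ⟨∑ x : b, ‖(x : Cm q)‖, Finset.sum_nonneg fun _ _ => norm_nonneg _, fun w hw => ?_⟩
  have h1 : w ∈ Submodule.span ℝ (Set.range ((↑) : b → Cm q)) := by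
    rw [Subtype.range_coe, hbspan]
    exact hW w hw
  obtain ⟨r, hr⟩ := (Submodule.mem_span_range_iff_exists_fun ℝ).1 h1
  -- the product of the powers
  have h2 : ∀ T : Finset b, ∃ g ∈ D, c g = ∑ x ∈ T, ((⌊r x⌋ : ℤ) : ℝ) • (x : Cm q) := by
    intro T
    induction T using Finset.induction_on with
    | empty => exact ⟨1, D.one_mem, by simp [h.map_one]⟩
    | insert a T ha ih =>
      obtain ⟨g, hg, hgc⟩ := ih
      refine ⟨d a ^ ⌊r a⌋ * g, D.mul_mem (D.zpow_mem (hdD a) _) hg, ?_⟩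
      rw [h.add, h.map_zpow, hdc, hgc, Finset.sum_insert ha]
  obtain ⟨g, hg, hgc⟩ := h2 Finset.univ
  refine ⟨g, hg, ?_, ?_⟩
  · rw [hgc]
    exact W.sum_mem fun x _ => W.smul_mem _ (hbS x.2).2
  · rw [hgc, ← hr, ← Finset.sum_sub_distrib]
    refine (norm_sum_le _ _).trans (Finset.sum_le_sum fun x _ => ?_)
    rw [← sub_smul, norm_smul]
    have h3 : ‖r x - (⌊r x⌋ : ℝ)‖ ≤ 1 := by
      rw [Real.norm_eq_abs, abs_of_nonneg (sub_nonneg.2 (Int.floor_le _))]
      linarith [Int.lt_floor_add_one (r x)]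
    calc ‖r x - (⌊r x⌋ : ℝ)‖ * ‖(x : Cm q)‖ ≤ 1 * ‖(x : Cm q)‖ := by gcongr
      _ = _ := one_mul _

/-- the quotient lattice -/
lemma quot (h : LatChar Γ q c) (D : Subgroup Γ) (W : Submodule ℂ (Cm q))
    (hW : ∀ v ∈ W, v ∈ Submodule.span ℝ ({v | ∃ g ∈ D, c g = v} ∩ (W : Set (Cm q))))
    {q₂ : ℕ} (L : Cm q →ₗ[ℂ] Cm q₂) (hL : Surjective L) (hker : LinearMap.ker L = W) :
    LatChar Γ q₂ (fun g => L (c g)) := by
  obtain ⟨C, hC0, hC⟩ := h.near D (W.restrictScalars ℝ) hW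
  obtain ⟨s, hs⟩ := LinearMap.exists_rightInverse_of_surjective L (LinearMap.range_eq_top.2 hL)
  obtain ⟨B, hB0, hB⟩ := (LinearMap.toContinuousLinearMap s).bound
  refine ⟨fun g k => by simp only [h.add, map_add], fun R => ?_, ?_⟩
  · refine ((h.disc (B * |R| + C)).image L).subset ?_
    rintro v ⟨⟨g, rfl⟩, hv⟩
    have hw : c g - s (L (c g)) ∈ W.restrictScalars ℝ := by
      rw [Submodule.restrictScalars_mem, ← hker, LinearMap.mem_ker, map_sub, sub_eq_zero]
      exact (LinearMap.congr_fun hs (L (c g))).symm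
    obtain ⟨d, hdD, hdW, hd⟩ := hC _ hw
    have hdL : L (c d) = 0 := by
      rw [← LinearMap.mem_ker, hker]; exact hdW
    refine ⟨c (g * d⁻¹), ⟨⟨_, rfl⟩, ?_⟩, ?_⟩
    · rw [h.add, h.map_inv]
      have h1 : c g + -c d = s (L (c g)) + (c g - s (L (c g)) - c d) := by abel
      rw [h1]
      refine (norm_add_le _ _).trans (add_le_add ?_ hd)
      refine (hB _).trans ?_
      have h2 : ‖L (c g)‖ ≤ |R| := hv.trans (le_abs_self R)
      exact mul_le_mul_of_nonneg_left h2 hB0.le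
    · rw [h.add, h.map_inv, map_add, map_neg, hdL, neg_zero, add_zero]
  · have h1 : Set.range (fun g => L (c g)) = (L.restrictScalars ℝ) '' (Set.range c) := by
      rw [← Set.range_comp]; rfl
    rw [h1, Submodule.span_image, h.span, Submodule.map_top, LinearMap.range_eq_top]
    exact hL

/-- finitely many differences -/
lemma near_fin (h : LatChar Γ q c) (D : Subgroup Γ) (W : Submodule ℝ (Cm q))
    (hW : ∀ v ∈ W, v ∈ Submodule.span ℝ ({v | ∃ g ∈ D, c g = v} ∩ (W : Set (Cm q)))) :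
    ∃ F : Set (Cm q), F.Finite ∧ ∀ g, c g ∈ W → ∃ d ∈ D, c d ∈ W ∧ c (g * d⁻¹) ∈ F := by
  obtain ⟨C, hC0, hC⟩ := h.near D W hW
  refine ⟨_, h.disc C, fun g hg => ?_⟩
  obtain ⟨d, hdD, hdW, hd⟩ := hC _ hg
  refine ⟨d, hdD, hdW, ⟨_, rfl⟩, ?_⟩
  rw [h.add, h.map_inv, ← sub_eq_add_neg]
  exact hd

end LatChar

end Vale.Agent.P284.H213.Grp
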