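import Vale.Agent.P284.H213.Grp.Basic
import Vale.Agent.P284.H213.Grp.Lat

/-!
# P284 (helper213), module NORM: proof
-/

open Function

set_option linter.all false

noncomputable section

namespace Vale.Agent.P284.H213.Grp

open Vale.Agent.P272.K Vale.Agent.P284.H894.V

/-- transport of the finite index condition -/
lemma fi_iff_cover {Γ : Type*} [Group Γ] {H P : Subgroup Γ} :
    (H.subgroupOf P).FiniteIndex ↔ ∃ F : Set Γ, F.Finite ∧ ∀ g ∈ P, ∃ f ∈ F, f⁻¹ * g ∈ H :=
  ⟨fun h => by obtain ⟨F, h1, -, h2⟩ := cover_of_fi h; exact ⟨F, h1, h2⟩,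
    fun ⟨F, h1, h2⟩ => fi_of_cover h1 h2⟩

/-- finite index passes to preimages and intersections -/
lemma fi_comap {A B : Type*} [Group A] [Group B] (f : A →* B) {H P : Subgroup B}
    (h : (H.subgroupOf P).FiniteIndex) : ((H.comap f).subgroupOf (P.comap f)).FiniteIndex := by
  classical
  obtain ⟨F, hF, hFP, hc⟩ := cover_of_fi h
  -- representatives in `A`, when they exist
  let r : B → A := fun b => if hb : ∃ a, a ∈ P.comap f ∧ b⁻¹ * f a ∈ H then hb.choose else 1
  refine fi_of_cover (F := r '' F) (hF.image r) fun g hg => ?_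
  obtain ⟨b, hb, hbg⟩ := hc (f g) hg
  refine ⟨r b, ⟨b, hb, rfl⟩, ?_⟩
  have hex : ∃ a, a ∈ P.comap f ∧ b⁻¹ * f a ∈ H := ⟨g, hg, hbg⟩
  have h1 : r b = hex.choose := dif_pos hex
  have h2 := hex.choose_spec
  rw [← h1] at h2
  show f ((r b)⁻¹ * g) ∈ H
  have h3 := H.mul_mem (H.inv_mem h2.2) hbg
  simpa [mul_assoc] using h3

lemma fi_map {A B : Type*} [Group A] [Group B] (f : A →* B) {H P : Subgroup A}
    (h : (H.subgroupOf P).FiniteIndex) : ((H.map f).subgroupOf (P.map f)).FiniteIndex := by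
  obtain ⟨F, hF, -, hc⟩ := cover_of_fi h
  refine fi_of_cover (F := f '' F) (hF.image f) ?_
  rintro _ ⟨g, hg, rfl⟩
  obtain ⟨b, hb, hbg⟩ := hc g hg
  exact ⟨f b, ⟨b, hb, rfl⟩, ⟨b⁻¹ * g, hbg, by simp⟩⟩

/-- finite index passes to intersections with a subgroup `Q ≤ P` -/
lemma fi_inf {A : Type*} [Group A] {H P Q : Subgroup A} (h : (H.subgroupOf P).FiniteIndex)
    (hQ : Q ≤ P) : ((H ⊓ Q).subgroupOf Q).FiniteIndex := by
  have h1 := fi_comap Q.subtype h
  have h2 : P.comap Q.subtype = ⊤ := by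
    rw [eq_top_iff]; intro x _; exact hQ x.2
  rw [h2] at h1
  obtain ⟨F, hF, -, hc⟩ := cover_of_fi h1
  refine fi_of_cover (F := Q.subtype '' F) (hF.image _) fun g hg => ?_
  obtain ⟨b, hb, hbg⟩ := hc ⟨g, hg⟩ (Subgroup.mem_top _)
  refine ⟨b, ⟨b, hb, rfl⟩, ?_, Q.mul_mem (Q.inv_mem b.2) hg⟩
  exact hbg

/-- the preliminary data -/
structure Pre (Γ : Type) [Group Γ] (N : ℕ) (c : Γ → Cm N) (K : Subgroup Γ) : Prop where
  lat : LatChar Γ N c
  mem : ∀ g, g ∈ K ↔ c g = 0
  fg : Group.FG K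
  inf : Infinite K
  nvi : ¬ VirtIndicable K
  just : ∀ M : Subgroup Γ, M.Normal → M ≤ K → M ≠ ⊥ → (M.subgroupOf K).FiniteIndex

section quot
variable {Γ : Type} [Group Γ] {N : ℕ} {c : Γ → Cm N}

/-- the period map of a quotient -/
lemma exists_lift (h : LatChar Γ N c) (M : Subgroup Γ) [M.Normal] (hM : M ≤ h.ker) :
    ∃ c₀ : Γ ⧸ M → Cm N, (∀ g : Γ, c₀ (g : Γ ⧸ M) = c g) ∧ LatChar (Γ ⧸ M) N c₀ := by
  let c₀ : Γ ⧸ M → Cm N := fun x => Quotient.liftOn' x c (by
    intro a b hab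
    rw [QuotientGroup.leftRel_apply] at hab
    have h1 : c (a⁻¹ * b) = 0 := hM hab
    rw [h.add, h.map_inv] at h1
    exact (neg_add_eq_zero.1 h1))
  have hc₀ : ∀ g : Γ, c₀ (g : Γ ⧸ M) = c g := fun g => rfl
  refine ⟨c₀, hc₀, fun x y => ?_, fun R => ?_, ?_⟩
  · obtain ⟨a, rfl⟩ := QuotientGroup.mk_surjective x
    obtain ⟨b, rfl⟩ := QuotientGroup.mk_surjective y
    rw [← QuotientGroup.mk_mul, hc₀, hc₀, hc₀, h.add]
  · refine (h.disc R).subset ?_
    rintro v ⟨⟨x, rfl⟩, hv⟩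
    obtain ⟨a, rfl⟩ := QuotientGroup.mk_surjective x
    exact ⟨⟨a, rfl⟩, hv⟩
  · have : Set.range c₀ = Set.range c := by
      ext v
      constructor
      · rintro ⟨x, rfl⟩
        obtain ⟨a, rfl⟩ := QuotientGroup.mk_surjective x
        exact ⟨a, rfl⟩
      · rintro ⟨a, rfl⟩
        exact ⟨(a : Γ ⧸ M), rfl⟩
    rw [this]; exact h.span

/-- **Step A**: Zorn. -/
theorem exists_pre (h : LatChar Γ N c) (K : Subgroup Γ) (hK : ∀ g, g ∈ K ↔ c g = 0)
    (hfg : Group.FG K) (hinf : Infinite K) (hnvi : ¬ VirtIndicable K) :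
    ∃ (M : Subgroup Γ) (_ : M.Normal) (c₀ : Γ ⧸ M → Cm N), (∀ g : Γ, c₀ (g : Γ ⧸ M) = c g) ∧
      Pre (Γ ⧸ M) N c₀ (K.map (QuotientGroup.mk' M)) := by
  classical
  obtain ⟨M, hMn, hMK, hMi, hmax⟩ := exists_max K hfg hinf
  have hMker : M ≤ h.ker := fun g hg => (hK g).1 (hMK hg)
  obtain ⟨c₀, hc₀, hlat⟩ := exists_lift h M hMker
  haveI := hfg
  let π := QuotientGroup.mk' M
  have hπ : Surjective π := QuotientGroup.mk'_surjective M
  have hcomap : (K.map π).comap π = K := by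
    rw [Subgroup.comap_map_eq, QuotientGroup.ker_mk']
    exact sup_eq_left.2 hMK
  let f : K →* K.map π := π.subgroupMap K
  have hf : Surjective f := π.subgroupMap_surjective K
  refine ⟨M, hMn, c₀, hc₀, hlat, ?_, ?_, ?_, ?_, ?_⟩
  · intro x
    obtain ⟨g, rfl⟩ := hπ x
    have h1 : π g ∈ K.map π ↔ g ∈ (K.map π).comap π := Iff.rfl
    rw [h1, hcomap, hK]
    show c g = 0 ↔ c₀ (g : Γ ⧸ M) = 0
    rw [hc₀]
  · exact Group.fg_of_surjective hf
  · by_contra hfin
    rw [not_infinite_iff_finite] at hfin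
    apply hMi
    have h1 : ((⊥ : Subgroup (Γ ⧸ M)).subgroupOf (K.map π)).FiniteIndex := by
      rw [Subgroup.bot_subgroupOf]
      exact Subgroup.finiteIndex_of_finite_quotient
    have h2 := fi_comap π h1
    have h3 : (⊥ : Subgroup (Γ ⧸ M)).comap π = M := by
      rw [MonoidHom.comap_bot, QuotientGroup.ker_mk']
    rwa [h3, hcomap] at h2
  · intro hv
    exact hnvi (H731.VirtIndicable.of_surj f hf hv)
  · intro M' hM'n hM'K hM'0
    have h1 : (M'.comap π).Normal := hM'n.comap π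
    have h2 : M ≤ M'.comap π := by
      intro g hg
      show π g ∈ M'
      have : π g = 1 := (QuotientGroup.eq_one_iff g).2 hg
      rw [this]; exact M'.one_mem
    have h3 : M'.comap π ≤ K := by
      rw [← hcomap]; exact Subgroup.comap_mono hM'K
    have h4 : M'.comap π ≠ M := by
      intro he
      apply hM'0
      rw [eq_bot_iff]
      intro x hx
      obtain ⟨g, rfl⟩ := hπ x
      have : g ∈ M := by rw [← he]; exact hx
      exact (QuotientGroup.eq_one_iff g).2 this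
    have h5 := fi_map π (hmax _ h1 h2 h3 h4)
    rwa [Subgroup.map_comap_eq_self_of_surjective hπ] at h5

end quot

/-! ### Step B -/

section pre
variable {Γ : Type} [Group Γ] {N : ℕ} {c : Γ → Cm N} {K : Subgroup Γ}

lemma Pre.normal (h : Pre Γ N c K) : K.Normal := by
  have : K = h.lat.ker := by ext g; exact h.mem g
  rw [this]; exact h.lat.ker_normal

/-- In a finitely generated infinite group `K` which is not virtually indicable, normal in `Γ` and
just infinite relative to `Γ`: the centralizers of subgroups of finite index are trivial. -/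
lemma cent_trivial {Γ : Type} [Group Γ] {K : Subgroup Γ} (hKn : K.Normal) (hfg : Group.FG K)
    (hinf : Infinite K) (hnvi : ¬ VirtIndicable K)
    (just : ∀ M : Subgroup Γ, M.Normal → M ≤ K → M ≠ ⊥ → (M.subgroupOf K).FiniteIndex)
    (K' : Subgroup Γ) (hK' : K' ≤ K) (hn : K'.Normal) (hfi : (K'.subgroupOf K).FiniteIndex) :
    ∀ g ∈ K, (∀ k ∈ K', g * k = k * g) → g = 1 := by
  classical
  haveI := hfg
  haveI := hinf
  -- the centralizer of `K'` in `K`
  have hCn : (K ⊓ Subgroup.centralizer (K' : Set Γ)).Normal := by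
    have : (Subgroup.centralizer (K' : Set Γ)).Normal := by
      haveI := hn
      exact Subgroup.normal_centralizer
    haveI := hKn
    infer_instance
  by_cases hC : K ⊓ Subgroup.centralizer (K' : Set Γ) = ⊥
  · intro g hg hgk
    have : g ∈ K ⊓ Subgroup.centralizer (K' : Set Γ) :=
      ⟨hg, Subgroup.mem_centralizer_iff.2 fun k hk => (hgk k hk).symm⟩
    rw [hC] at this
    exact Subgroup.mem_bot.1 this
  · exfalso
    apply hnvi
    have h1 := just _ hCn inf_le_left hC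
    -- the intersection with `K'` is commutative and of finite index
    have h2 : (((K ⊓ Subgroup.centralizer (K' : Set Γ)) ⊓ K').subgroupOf K).FiniteIndex := by
      have : ((K ⊓ Subgroup.centralizer (K' : Set Γ)) ⊓ K').subgroupOf K =
          (K ⊓ Subgroup.centralizer (K' : Set Γ)).subgroupOf K ⊓ K'.subgroupOf K := rfl
      rw [this]
      haveI := h1
      haveI := hfi
      infer_instance
    refine virtInd_of_comm _ h2 ?_
    rintro ⟨x, hx⟩ hx1 ⟨y, hy⟩ hy1
    apply Subtype.ext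
    have h3 : x ∈ Subgroup.centralizer (K' : Set Γ) := hx1.1.2
    have h4 : y ∈ K' := hy1.2
    exact (Subgroup.mem_centralizer_iff.1 h3 y h4).symm

/-- every subgroup of finite index of the finitely generated normal subgroup `K` contains one which is
normal in `Γ` -/
lemma exists_normal_core {Γ : Type} [Group Γ] {K : Subgroup Γ} (hKn : K.Normal) (hfg : Group.FG K)
    (K' : Subgroup Γ) (hK' : K' ≤ K) (hfi : (K'.subgroupOf K).FiniteIndex) :
    ∃ K'' : Subgroup Γ, K''.Normal ∧ K'' ≤ K' ∧ (K''.subgroupOf K).FiniteIndex := by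
  classical
  haveI := hfg
  haveI := hfi
  -- the intersection of all subgroups of `K` of index dividing ... : a characteristic subgroup
  set d := (K'.subgroupOf K).index with hd
  have hd0 : d ≠ 0 := hfi.index_ne_zero
  -- the intersection of the kernels of all homomorphisms `K → Perm (Fin d)`
  let P := Equiv.Perm (Fin d)
  have hfinhom : Finite (K →* P) := by
    obtain ⟨S, hS⟩ := (Group.fg_iff).1 hfg
    have : Finite S := hS.2
    refine Finite.of_injective (fun φ : K →* P => fun s : S => φ s) ?_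
    intro φ ψ hφψ
    refine MonoidHom.eq_of_eqOn_dense hS.1 fun s hs => ?_
    exact congrFun hφψ ⟨s, hs⟩
  let R : Subgroup K := ⨅ φ : K →* P, φ.ker
  have hRfi : R.FiniteIndex := by
    haveI := hfinhom
    have : ∀ φ : K →* P, φ.ker.FiniteIndex := fun φ => inferInstance
    exact Subgroup.finiteIndex_iInf this
  have hRle : R ≤ K'.subgroupOf K := by
    haveI : Finite (K ⧸ K'.subgroupOf K) := inferInstance
    have hcard : Nat.card (K ⧸ K'.subgroupOf K) = d := rfl
    let e : (K ⧸ K'.subgroupOf K) ≃ Fin d := (Finite.equivFinOfCardEq hcard)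
    let φ : K →* P := (e.permCongrHom.toMonoidHom).comp (MulAction.toPermHom K (K ⧸ K'.subgroupOf K))
    intro x hx
    have hx1 : x ∈ φ.ker := by
      have := (Subgroup.mem_iInf.1 hx) φ
      exact this
    have hx2 : MulAction.toPermHom K (K ⧸ K'.subgroupOf K) x = 1 := by
      have h1 : e.permCongrHom (MulAction.toPermHom K (K ⧸ K'.subgroupOf K) x) = 1 := hx1
      exact (MulEquiv.map_eq_one_iff _).1 h1
    have hx3 : x • (QuotientGroup.mk (1 : K) : K ⧸ K'.subgroupOf K) = QuotientGroup.mk 1 := by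
      have := congrArg (fun σ : Equiv.Perm (K ⧸ K'.subgroupOf K) => σ (QuotientGroup.mk 1)) hx2
      simpa using this
    rw [MulAction.Quotient.smul_mk, smul_eq_mul, mul_one, eq_comm, QuotientGroup.eq, inv_one,
      one_mul] at hx3
    exact hx3
  have hconj : ∀ (x : K), x ∈ R → ∀ g : Γ, (⟨g * x * g⁻¹, hKn.conj_mem x x.2 g⟩ : K) ∈ R := by
    intro x hx g
    rw [Subgroup.mem_iInf]
    intro φ
    haveI := hKn
    let α : K →* K := (MulAut.conjNormal (H := K) g).toMonoidHom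
    have h1 := (Subgroup.mem_iInf.1 hx) (φ.comp α)
    have h2 : φ (α x) = 1 := h1
    have h3 : α x = ⟨g * x * g⁻¹, hKn.conj_mem x x.2 g⟩ := by
      apply Subtype.ext
      exact MulAut.conjNormal_apply g x
    rw [h3] at h2
    exact h2
  refine ⟨R.map K.subtype, ⟨?_⟩, ?_, ?_⟩
  · rintro _ ⟨x, hx, rfl⟩ g
    exact ⟨_, hconj x hx g, rfl⟩
  · rintro _ ⟨x, hx, rfl⟩
    exact hRle hx
  · have : (R.map K.subtype).subgroupOf K = R := by
      ext x
      constructor
      · rintro ⟨y, hy, hxy⟩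
        have : y = x := Subtype.ext hxy
        rw [← this]; exact hy
      · intro hx
        exact ⟨x, hx, rfl⟩
    rw [this]; exact hRfi

/-- the condition for a quotient torus -/
def Good (K : Subgroup Γ) {q : ℕ} (c₂ : Γ → Cm q) : Prop :=
  ∃ F : Set Γ, F.Finite ∧ ∀ g, c₂ g = 0 → ∃ f ∈ F, ∃ k ∈ K, ∃ d, (∀ k ∈ K, d * k = k * d) ∧
    c₂ d = 0 ∧ g = f * k * d

/-- **Step B**: the minimal quotient torus. -/
theorem exists_torus (h : Pre Γ N c K) : ∃ (q : ℕ) (L : Cm N →ₗ[ℂ] Cm q), Surjective L ∧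
    LatChar Γ q (fun g => L (c g)) ∧ Good K (fun g => L (c g)) ∧
    ∀ W : Submodule ℂ (Cm q),
      (∀ v ∈ W, v ∈ Submodule.span ℝ ({v | ∃ g, (∀ k ∈ K, g * k = k * g) ∧ L (c g) = v} ∩
        (W : Set (Cm q)))) → W = ⊥ := by
  classical
  let P : ℕ → Prop := fun q => ∃ L : Cm N →ₗ[ℂ] Cm q, Surjective L ∧
    LatChar Γ q (fun g => L (c g)) ∧ Good K (fun g => L (c g))
  have hP : P N := by
    refine ⟨LinearMap.id, surjective_id, h.lat, {1}, Set.finite_singleton _, fun g hg =>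
      ⟨1, rfl, g, (h.mem g).2 hg, 1, fun k _ => by simp, ?_, by simp⟩⟩
    exact h.lat.map_one
  have hex : ∃ q, P q := ⟨N, hP⟩
  obtain ⟨q, ⟨L, hL, hlat, hgood⟩, hmin⟩ : ∃ q, P q ∧ ∀ q', P q' → q ≤ q' :=
    ⟨Nat.find hex, Nat.find_spec hex, fun q hq => Nat.find_min' hex hq⟩
  refine ⟨q, L, hL, hlat, hgood, fun W hW => ?_⟩
  by_contra hW0
  -- the quotient by `W`
  let D : Subgroup Γ := Subgroup.centralizer (K : Set Γ)
  have hD : ∀ g, g ∈ D ↔ ∀ k ∈ K, g * k = k * g := fun g => by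
    rw [Subgroup.mem_centralizer_iff]
    exact ⟨fun h k hk => (h k hk).symm, fun h k hk => (h k hk).symm⟩
  have hset : {v | ∃ g, (∀ k ∈ K, g * k = k * g) ∧ L (c g) = v} = {v | ∃ g ∈ D, L (c g) = v} := by
    ext v; simp only [Set.mem_setOf_eq, hD]
  rw [hset] at hW
  set q₂ := Module.finrank ℂ (Cm q ⧸ W) with hq₂
  let b := Module.finBasis ℂ (Cm q ⧸ W)
  let L₂ : Cm q →ₗ[ℂ] Cm q₂ := b.equivFun.toLinearMap.comp W.mkQ
  have hL₂ : Surjective L₂ := b.equivFun.surjective.comp W.mkQ_surjective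
  have hker : LinearMap.ker L₂ = W := by
    rw [LinearMap.ker_comp_of_ker_eq_bot _ (LinearEquiv.ker _), Submodule.ker_mkQ]
  have hlat₂ := hlat.quot D W hW L₂ hL₂ hker
  have hlt : q₂ < q := by
    have h1 := Submodule.finrank_quotient_add_finrank W
    have h2 : 0 < Module.finrank ℂ W := by
      rw [Module.finrank_pos_iff]
      exact (Submodule.nontrivial_iff_ne_bot).2 hW0
    have h3 : Module.finrank ℂ (Cm q) = q := by simp
    omega
  have hgood₂ : Good K (fun g => (L₂.comp L) (c g)) := by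
    obtain ⟨F, hF, hFc⟩ := hgood
    obtain ⟨F', hF', hFc'⟩ := hlat.near_fin D (W.restrictScalars ℝ) hW
    -- representatives of the elements of `F'`
    let r : Cm q → Γ := fun v => if hv : ∃ g, L (c g) = v then hv.choose else 1
    have hr : ∀ g, L (c (r (L (c g)))) = L (c g) := by
      intro g
      have hv : ∃ g', L (c g') = L (c g) := ⟨g, rfl⟩
      have : r (L (c g)) = hv.choose := dif_pos hv
      rw [this]; exact hv.choose_spec
    refine ⟨(fun p : Γ × Cm q => r p.2 * p.1) '' (F ×ˢ F'), (hF.prod hF').image _, fun g hg => ?_⟩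
    have hgW : L (c g) ∈ W := by
      rw [← hker]; exact hg
    obtain ⟨d, hdD, hdW, hdF⟩ := hFc' g hgW
    -- `g d⁻¹ = r v * x`, `x ∈ ker`
    set v := L (c (g * d⁻¹)) with hv
    have hx : L (c ((r v)⁻¹ * (g * d⁻¹))) = 0 := by
      have h1 := hlat.add (r v)⁻¹ (g * d⁻¹)
      have h2 := hlat.map_inv (r v)
      rw [h1, h2, hv, hr, neg_add_cancel]
    obtain ⟨f, hf, k, hk, d', hd', hd'0, he⟩ := hFc _ hx
    refine ⟨r v * f, ⟨(f, v), ⟨hf, hdF⟩, rfl⟩, k, hk, d' * d, ?_, ?_, ?_⟩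
    · intro k' hk'
      rw [mul_assoc, (hD d).1 hdD k' hk', ← mul_assoc, hd' k' hk', mul_assoc]
    · show L₂ (L (c (d' * d))) = 0
      have h1 := hlat.add d' d
      have h2 : L (c d') = 0 := hd'0
      rw [h1, map_add, h2, map_zero, zero_add, ← LinearMap.mem_ker, hker]
      exact hdW
    · calc g = r v * ((r v)⁻¹ * (g * d⁻¹)) * d := by group
        _ = r v * (f * k * d') * d := by rw [he]
        _ = _ := by group
  have := hmin q₂ ⟨L₂.comp L, hL₂.comp hL, hlat₂, hgood₂⟩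
  omega

/-- **Step C**: the quotient by `ker c₂ ⊓ C(K)`. -/
theorem npkg_of (h : Pre Γ N c K) {q : ℕ} (L : Cm N →ₗ[ℂ] Cm q)
    (hlat : LatChar Γ q (fun g => L (c g))) (hgood : Good K (fun g => L (c g)))
    (hmax : ∀ W : Submodule ℂ (Cm q),
      (∀ v ∈ W, v ∈ Submodule.span ℝ ({v | ∃ g, (∀ k ∈ K, g * k = k * g) ∧ L (c g) = v} ∩
        (W : Set (Cm q)))) → W = ⊥) :
    ∃ (M : Subgroup Γ) (_ : M.Normal) (c₁ : Γ ⧸ M → Cm q) (K₁ : Subgroup (Γ ⧸ M)),
      (∀ g : Γ, c₁ (g : Γ ⧸ M) = L (c g)) ∧ NPkg (Γ ⧸ M) q c₁ K₁ := by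
  classical
  have hKn := h.normal
  haveI := hKn
  haveI := h.fg
  haveI := h.inf
  have hCn : (Subgroup.centralizer (K : Set Γ)).Normal := Subgroup.normal_centralizer
  haveI := hCn
  haveI := hlat.ker_normal
  set M : Subgroup Γ := hlat.ker ⊓ Subgroup.centralizer (K : Set Γ) with hM
  have hMn : M.Normal := inferInstance
  have hcent : ∀ g, g ∈ Subgroup.centralizer (K : Set Γ) ↔ ∀ k ∈ K, g * k = k * g := fun g => by
    rw [Subgroup.mem_centralizer_iff]
    exact ⟨fun h k hk => (h k hk).symm, fun h k hk => (h k hk).symm⟩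
  -- the centre of `K` is trivial
  have hcK : ∀ g ∈ K, (∀ k ∈ K, g * k = k * g) → g = 1 :=
    cent_trivial hKn h.fg h.inf h.nvi h.just K le_rfl hKn (by
      rw [Subgroup.subgroupOf_self]; infer_instance)
  have hKM : ∀ g ∈ K, g ∈ M → g = 1 := fun g hg hgM => hcK g hg ((hcent g).1 hgM.2)
  obtain ⟨c₁, hc₁, hlat₁⟩ := exists_lift hlat M inf_le_left
  let π := QuotientGroup.mk' M
  have hπ : Surjective π := QuotientGroup.mk'_surjective M
  have hπ1 : ∀ g, π g = 1 ↔ g ∈ M := fun g => QuotientGroup.eq_one_iff g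
  have hcπ : ∀ g, c₁ (π g) = L (c g) := hc₁
  let f : K →* K.map π := π.subgroupMap K
  have hf : Surjective f := π.subgroupMap_surjective K
  have hfi : Injective f := by
    rw [injective_iff_map_eq_one]
    intro x hx
    have h1 : π x = 1 := congrArg Subtype.val hx
    exact Subtype.ext (hKM x x.2 ((hπ1 _).1 h1))
  let e : K ≃* K.map π := MulEquiv.ofBijective f ⟨hfi, hf⟩
  have hK₁n : (K.map π).Normal := hKn.map π hπ
  have hfg₁ : Group.FG (K.map π) := Group.fg_of_surjective hf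
  have hinf₁ : Infinite (K.map π) := Infinite.of_injective f hfi
  have hnvi₁ : ¬ VirtIndicable (K.map π) := fun hv => h.nvi (virtInd_congr e hv)
  have hsub₁ : ∀ g ∈ K.map π, c₁ g = 0 := by
    rintro _ ⟨g, hg, rfl⟩
    rw [hcπ, (h.mem g).1 hg, map_zero]
  have hjust₁ : ∀ M' : Subgroup (Γ ⧸ M), M'.Normal → M' ≤ K.map π → M' ≠ ⊥ →
      (M'.subgroupOf (K.map π)).FiniteIndex := by
    intro M' hM'n hM'K hM'0
    haveI := hM'n.comap π
    have h1 : (M'.comap π ⊓ K).Normal := inferInstance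
    have h2 : M'.comap π ⊓ K ≠ ⊥ := by
      intro h0
      apply hM'0
      rw [eq_bot_iff]
      intro x hx
      obtain ⟨g, hg, rfl⟩ := hM'K hx
      have : g ∈ M'.comap π ⊓ K := ⟨hx, hg⟩
      rw [h0, Subgroup.mem_bot] at this
      rw [this, map_one]; exact Subgroup.one_mem _
    have h3 := fi_map π (h.just _ h1 inf_le_right h2)
    have h4 : (M'.comap π ⊓ K).map π ≤ M' := by
      rintro _ ⟨g, hg, rfl⟩
      exact hg.1
    obtain ⟨F, hF, -, hFc⟩ := cover_of_fi h3
    exact fi_of_cover hF fun g hg => by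
      obtain ⟨b, hb, hbg⟩ := hFc g hg
      exact ⟨b, hb, h4 hbg⟩
  -- the centralizer of `K₁` meets `ker c₁` trivially
  have hcent₁ : ∀ g, (∀ k ∈ K.map π, g * k = k * g) → ∀ x, π x = g → ∀ k ∈ K, x * k = k * x := by
    rintro _ hg x rfl k hk
    have h1 := hg (π k) ⟨k, hk, rfl⟩
    have h2 : π (x * k * x⁻¹ * k⁻¹) = 1 := by
      rw [map_mul, map_mul, map_mul, h1, map_inv, map_inv]; group
    have h3 : x * k * x⁻¹ * k⁻¹ ∈ K := K.mul_mem (hKn.conj_mem k hk x) (K.inv_mem hk)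
    have h4 := hKM _ h3 ((hπ1 _).1 h2)
    calc x * k = (x * k * x⁻¹ * k⁻¹) * (k * x) := by group
      _ = k * x := by rw [h4, one_mul]
  have hcc₁ : ∀ g, (∀ k ∈ K.map π, g * k = k * g) → c₁ g = 0 → g = 1 := by
    intro g hg hg0
    obtain ⟨x, rfl⟩ := hπ g
    rw [hπ1]
    refine ⟨?_, (hcent x).2 (hcent₁ _ hg x rfl)⟩
    rw [hcπ] at hg0
    exact hg0
  refine ⟨M, hMn, c₁, K.map π, hc₁, hlat₁, hK₁n, hfg₁, hinf₁, hsub₁, ?_, hnvi₁, hjust₁, ?_, ?_, ?_⟩
  · -- finite index
    obtain ⟨F, hF, hFc⟩ := hgood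
    refine ⟨π '' F, hF.image _, fun g hg => ?_⟩
    obtain ⟨x, rfl⟩ := hπ g
    rw [hcπ] at hg
    obtain ⟨f', hf', k, hk, d, hd, hd0, he⟩ := hFc x hg
    have h1 : π d = 1 := (hπ1 _).2 ⟨hd0, (hcent d).2 hd⟩
    refine ⟨π f', ⟨f', hf', rfl⟩, ⟨k, hk, ?_⟩⟩
    rw [he, map_mul, map_mul, h1]; group
  · -- centralizers
    intro K' hK' hK'fi g hg0 hgk
    obtain ⟨K'', hn'', hle'', hfi''⟩ := exists_normal_core hK₁n hfg₁ K' hK' hK'fi
    have htriv := cent_trivial hK₁n hfg₁ hinf₁ hnvi₁ hjust₁ K'' (hle''.trans hK') hn'' hfi''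
    have hgk'' : ∀ k ∈ K'', g * k = k * g := fun k hk => hgk k (hle'' hk)
    -- `g` centralizes `K₁`
    have h1 : ∀ k ∈ K.map π, g * k = k * g := by
      intro k hk
      have h2 : g * k * g⁻¹ * k⁻¹ ∈ K.map π :=
        Subgroup.mul_mem _ (hK₁n.conj_mem k hk g) (Subgroup.inv_mem _ hk)
      have h3 : ∀ z ∈ K'', (g * k * g⁻¹ * k⁻¹) * z = z * (g * k * g⁻¹ * k⁻¹) := by
        intro z hz
        have e1 : g * z = z * g := hgk'' z hz
        have hz' : k⁻¹ * z * k ∈ K'' := by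
          have := hn''.conj_mem z hz k⁻¹
          rwa [inv_inv] at this
        have e2 : g * (k⁻¹ * z * k) = (k⁻¹ * z * k) * g := hgk'' _ hz'
        have e3 : g⁻¹ * (k⁻¹ * z * k) = (k⁻¹ * z * k) * g⁻¹ := by
          calc g⁻¹ * (k⁻¹ * z * k) = g⁻¹ * ((k⁻¹ * z * k) * g) * g⁻¹ := by group
            _ = g⁻¹ * (g * (k⁻¹ * z * k)) * g⁻¹ := by rw [e2]
            _ = _ := by group
        calc (g * k * g⁻¹ * k⁻¹) * z = g * k * (g⁻¹ * (k⁻¹ * z * k)) * k⁻¹ := by group
          _ = g * k * ((k⁻¹ * z * k) * g⁻¹) * k⁻¹ := by rw [e3]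
          _ = (g * z) * k * g⁻¹ * k⁻¹ := by group
          _ = (z * g) * k * g⁻¹ * k⁻¹ := by rw [e1]
          _ = _ := by group
      have h4 := htriv _ h2 h3
      calc g * k = (g * k * g⁻¹ * k⁻¹) * (k * g) := by group
        _ = k * g := by rw [h4, one_mul]
    exact hcc₁ g h1 hg0
  · -- the centralizer is central
    intro g hg x
    have h1 : c₁ (g * x * g⁻¹ * x⁻¹) = 0 := by
      rw [hlat₁.add, hlat₁.add, hlat₁.add, hlat₁.map_inv, hlat₁.map_inv]; abel
    have h2 : ∀ k ∈ K.map π, (g * x * g⁻¹ * x⁻¹) * k = k * (g * x * g⁻¹ * x⁻¹) := by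
      intro k hk
      have hk' : x⁻¹ * k * x ∈ K.map π := by
        have := hK₁n.conj_mem k hk x⁻¹
        rwa [inv_inv] at this
      have e1 : g * k = k * g := hg k hk
      have e2 : g * (x⁻¹ * k * x) = (x⁻¹ * k * x) * g := hg _ hk'
      have e3 : g⁻¹ * (x⁻¹ * k * x) = (x⁻¹ * k * x) * g⁻¹ := by
        calc g⁻¹ * (x⁻¹ * k * x) = g⁻¹ * ((x⁻¹ * k * x) * g) * g⁻¹ := by group
          _ = g⁻¹ * (g * (x⁻¹ * k * x)) * g⁻¹ := by rw [e2]
          _ = _ := by group
      calc (g * x * g⁻¹ * x⁻¹) * k = g * x * (g⁻¹ * (x⁻¹ * k * x)) * x⁻¹ := by group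
        _ = g * x * ((x⁻¹ * k * x) * g⁻¹) * x⁻¹ := by rw [e3]
        _ = (g * k) * x * g⁻¹ * x⁻¹ := by group
        _ = (k * g) * x * g⁻¹ * x⁻¹ := by rw [e1]
        _ = _ := by group
    have h3 := hcc₁ _ h2 h1
    calc g * x = (g * x * g⁻¹ * x⁻¹) * (x * g) := by group
      _ = x * g := by rw [h3, one_mul]
  · -- maximality
    intro W hW
    refine hmax W fun v hv => ?_
    have h1 : {v | ∃ g, (∀ k ∈ K.map π, g * k = k * g) ∧ c₁ g = v} ⊆
        {v | ∃ g, (∀ k ∈ K, g * k = k * g) ∧ L (c g) = v} := by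
      rintro _ ⟨g, hg, rfl⟩
      obtain ⟨x, rfl⟩ := hπ g
      exact ⟨x, hcent₁ _ hg x rfl, (hcπ x).symm⟩
    exact Submodule.span_mono (Set.inter_subset_inter_left _ h1) (hW v hv)

end pre

/-! ### Transport along isomorphisms -/

section congr
variable {A B : Type} [Group A] [Group B] {q : ℕ} {c : A → Cm q} {K : Subgroup A}

theorem LatChar.congr (e : B ≃* A) (h : LatChar A q c) : LatChar B q (fun b => c (e b)) := by
  refine ⟨fun x y => by rw [map_mul, h.add], fun R => ?_, ?_⟩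
  · refine (h.disc R).subset ?_
    rintro v ⟨⟨g, rfl⟩, hv⟩
    exact ⟨⟨e g, rfl⟩, hv⟩
  · have : Set.range (fun b => c (e b)) = Set.range c := e.surjective.range_comp c
    rw [this]; exact h.span

theorem NPkg.congr (e : B ≃* A) (h : NPkg A q c K) :
    NPkg B q (fun b => c (e b)) (K.comap e.toMonoidHom) := by
  let f : K.comap e.toMonoidHom ≃* K :=
    MulEquiv.ofBijective (e.toMonoidHom.subgroupComap K)
      ⟨fun x y hxy => Subtype.ext (e.injective (congrArg Subtype.val hxy)),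
        fun y => ⟨⟨e.symm y, by
          show e (e.symm y) ∈ K
          rw [e.apply_symm_apply]; exact y.2⟩, Subtype.ext (e.apply_symm_apply y)⟩⟩
  have hmem : ∀ b, b ∈ K.comap e.toMonoidHom ↔ e b ∈ K := fun b => Iff.rfl
  have hmap : ∀ M : Subgroup B, ∀ a, a ∈ M.map e.toMonoidHom ↔ e.symm a ∈ M := by
    intro M a
    constructor
    · rintro ⟨b, hb, rfl⟩
      show e.symm (e b) ∈ M
      rw [e.symm_apply_apply]; exact hb
    · intro ha
      exact ⟨_, ha, e.apply_symm_apply a⟩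
  have hcomap : ∀ M : Subgroup B, (M.map e.toMonoidHom).comap e.toMonoidHom = M := by
    intro M
    ext b
    rw [Subgroup.mem_comap, hmap]
    show e.symm (e b) ∈ M ↔ _
    rw [e.symm_apply_apply]
  refine ⟨h.lat.congr e, h.normal.comap _, ?_, ?_, fun g hg => h.sub _ hg, ?_, ?_, ?_, ?_, ?_, ?_⟩
  · haveI := h.fg
    exact Group.fg_of_surjective (f := f.symm.toMonoidHom) f.symm.surjective
  · haveI := h.inf
    exact Infinite.of_injective f.symm f.symm.injective
  · obtain ⟨F, hF, hc⟩ := h.fi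
    refine ⟨e.symm '' F, hF.image _, fun g hg => ?_⟩
    obtain ⟨a, ha, hag⟩ := hc (e g) hg
    refine ⟨e.symm a, ⟨a, ha, rfl⟩, ?_⟩
    rw [hmem, map_mul, map_inv, e.apply_symm_apply]
    exact hag
  · intro hv
    exact h.nvi (virtInd_congr f.symm hv)
  · intro M hMn hMK hM0
    have h1 := h.just (M.map e.toMonoidHom) (hMn.map _ e.surjective)
      (by
        rintro _ ⟨b, hb, rfl⟩
        exact hMK hb)
      (by
        intro h0
        apply hM0
        rw [Subgroup.map_eq_bot_iff_of_injective _ e.injective] at h0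
        exact h0)
    have h2 := fi_comap e.toMonoidHom h1
    rwa [hcomap] at h2
  · intro K' hK' hfi g hg hgk
    have h1 := fi_map e.toMonoidHom hfi
    have h3 : (K.comap e.toMonoidHom).map e.toMonoidHom = K :=
      Subgroup.map_comap_eq_self_of_surjective e.surjective K
    rw [h3] at h1
    have h2 := h.cent (K'.map e.toMonoidHom) (by
      rintro _ ⟨b, hb, rfl⟩
      exact hK' hb) h1 (e g) hg (by
        rintro _ ⟨b, hb, rfl⟩
        show e g * e b = e b * e g
        rw [← map_mul, hgk b hb, map_mul])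
    exact (MulEquiv.map_eq_one_iff e).1 h2
  · intro g hg x
    have h1 := h.central (e g) (by
      intro k hk
      have h2 := hg (e.symm k) (by rw [hmem, e.apply_symm_apply]; exact hk)
      have h3 := congrArg e h2
      rw [map_mul, map_mul, e.apply_symm_apply] at h3
      exact h3) (e x)
    rw [← map_mul, ← map_mul] at h1
    exact e.injective h1
  · intro W hW
    refine h.max W fun v hv => ?_
    refine Submodule.span_mono (Set.inter_subset_inter_left _ ?_) (hW v hv)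
    rintro _ ⟨g, hg, rfl⟩
    refine ⟨e g, fun k hk => ?_, rfl⟩
    have h2 := hg (e.symm k) (by rw [hmem, e.apply_symm_apply]; exact hk)
    have h3 := congrArg e h2
    rw [map_mul, map_mul, e.apply_symm_apply] at h3
    exact h3

end congr

/-- **NORM.** -/
theorem normStmt : NormStmt := by
  intro Γ _ N c h K hK hfg hinf hnvi
  obtain ⟨M₀, hM₀n, c₀, hc₀, hpre⟩ := exists_pre h K hK hfg hinf hnvi
  obtain ⟨q, L, hL, hlat, hgood, hmax⟩ := exists_torus hpre
  obtain ⟨M₁, hM₁n, c₁, K₁, hc₁, hpkg⟩ := npkg_of hpre L hlat hgood hmax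
  -- the double quotient
  let π := QuotientGroup.mk' M₀
  let M : Subgroup Γ := M₁.comap π
  have hMn : M.Normal := hM₁n.comap π
  have hmap : M.map π = M₁ := Subgroup.map_comap_eq_self_of_surjective
    (QuotientGroup.mk'_surjective M₀) M₁
  have hle : M₀ ≤ M := by
    intro g hg
    show π g ∈ M₁
    have : π g = 1 := (QuotientGroup.eq_one_iff g).2 hg
    rw [this]; exact M₁.one_mem
  let f : Γ →* (Γ ⧸ M₀) ⧸ M₁ := (QuotientGroup.mk' M₁).comp π
  have hf : Surjective f := (QuotientGroup.mk'_surjective M₁).comp (QuotientGroup.mk'_surjective M₀)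
  have hfk : f.ker = M := by
    rw [← MonoidHom.comap_bot, ← Subgroup.comap_comap, MonoidHom.comap_bot, QuotientGroup.ker_mk']
  let e : Γ ⧸ M ≃* (Γ ⧸ M₀) ⧸ M₁ := (QuotientGroup.quotientMulEquivOfEq hfk.symm).trans
    (QuotientGroup.quotientKerEquivOfSurjective f hf)
  have he : ∀ g : Γ, e (g : Γ ⧸ M) = f g := fun g => rfl
  refine ⟨M, hMn, q, L, fun x => c₁ (e x), _, hL, fun g => ?_, hpkg.congr e⟩
  show c₁ ((π g : Γ ⧸ M₀) : (Γ ⧸ M₀) ⧸ M₁) = _
  rw [hc₁]
  show L (c₀ (g : Γ ⧸ M₀)) = _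
  rw [hc₀]

end Vale.Agent.P284.H213.Grp
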