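import Vale.Agent.P284.H894.V.Defs
import Vale.Agent.P272.K.Stmt
import Mathlib.GroupTheory.Subgroup.Centralizer
import Mathlib.GroupTheory.QuotientGroup.Basic

/-!
# P284 (helper213), module NORM: normalisation of the group and of the torus, statement

`Γ` is the group of the covering (of `X_G`, so `G = Γ`), `c : Γ → ℂᴺ` the period map of the Albanese
lift, `K` its kernel.  If `K` is finitely generated, infinite and not virtually indicable there are a
quotient `π : Γ → Γ₁` of the group and a quotient torus (given by `L : ℂᴺ → ℂ^q`, surjective, with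
discrete image of the periods) such that the data `(Γ₁, c₁ = L ∘ c, K₁)` are normalised (`NPkg`).
-/

noncomputable section

namespace Vale.Agent.P284.H213.Grp

open Vale.Agent.P272.K Vale.Agent.P284.H894.V

/-- `c : Γ → ℂᴺ` is additive and its values form a lattice of `ℂᴺ`. -/
structure LatChar (Γ : Type*) [Group Γ] (N : ℕ) (c : Γ → Cm N) : Prop where
  add : ∀ g h, c (g * h) = c g + c h
  disc : ∀ R : ℝ, {v | (∃ g, c g = v) ∧ ‖v‖ ≤ R}.Finite
  span : Submodule.span ℝ (Set.range c) = ⊤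

/-- The normalised data: `K` is a normal subgroup of `Γ`, of finite index in `ker c`. -/
structure NPkg (Γ : Type) [Group Γ] (q : ℕ) (c : Γ → Cm q) (K : Subgroup Γ) : Prop where
  lat : LatChar Γ q c
  normal : K.Normal
  fg : Group.FG K
  inf : Infinite K
  sub : ∀ g ∈ K, c g = 0
  /-- `K` has finite index in `ker c` -/
  fi : ∃ F : Set Γ, F.Finite ∧ ∀ g, c g = 0 → ∃ f ∈ F, f⁻¹ * g ∈ K
  nvi : ¬ VirtIndicable K
  /-- nontrivial normal subgroups of `Γ` contained in `K` have finite index in `K` -/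
  just : ∀ M : Subgroup Γ, M.Normal → M ≤ K → M ≠ ⊥ → (M.subgroupOf K).FiniteIndex
  /-- centralizers of subgroups of finite index of `K` meet `ker c` trivially -/
  cent : ∀ K' : Subgroup Γ, K' ≤ K → (K'.subgroupOf K).FiniteIndex →
    ∀ g, c g = 0 → (∀ k ∈ K', g * k = k * g) → g = 1
  /-- the centralizer of `K` is central -/
  central : ∀ g, (∀ k ∈ K, g * k = k * g) → ∀ h, g * h = h * g
  /-- maximality of the torus: no nonzero complex subspace `W` of `ℂ^q` is spanned over `ℝ` by the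
  periods of elements of the centralizer of `K` which lie in `W` -/
  max : ∀ W : Submodule ℂ (Cm q),
    (∀ v ∈ W, v ∈ Submodule.span ℝ ({v | ∃ g, (∀ k ∈ K, g * k = k * g) ∧ c g = v} ∩ (W : Set (Cm q)))) →
    W = ⊥

/-- **NORM**. -/
def NormStmt : Prop :=
  ∀ (Γ : Type) [Group Γ] (N : ℕ) (c : Γ → Cm N), LatChar Γ N c → ∀ K : Subgroup Γ,
    (∀ g, g ∈ K ↔ c g = 0) → Group.FG K → Infinite K → ¬ VirtIndicable K →
    ∃ (M : Subgroup Γ) (_ : M.Normal) (q : ℕ) (L : Cm N →ₗ[ℂ] Cm q) (c₁ : Γ ⧸ M → Cm q)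
      (K₁ : Subgroup (Γ ⧸ M)), Function.Surjective L ∧ (∀ g : Γ, c₁ (g : Γ ⧸ M) = L (c g)) ∧
      NPkg (Γ ⧸ M) q c₁ K₁

end Vale.Agent.P284.H213.Grp
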