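import Vale.Agent.P284.H213.Grp.AsmS
import Vale.Agent.P284.H213.Grp.Norm
import Vale.Agent.P284.H730.Str
import Vale.Agent.P284.H119.Rank
import Vale.Agent.P284.H894.W.Final
import Vale.Agent.P284.H977.Pi1

/-!
# P284 (helper213), final group assembly
-/

open scoped Manifold ContDiff Topology Pointwise ComplexConjugate ComplexOrder
open Filter Set Metric MeasureTheory

noncomputable section

namespace Vale.Agent.P284.H213.Grp

open Vale.Agent.P272.K Vale.Agent.P284.H248 Vale.Agent.P284.H894 Vale.Agent.P284.H894.G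
  Vale.Agent.P284.H894.V Vale.Agent.P284.H894.W Vale.Agent.P284.H998 Vale.Agent.P284.H221

/-! ### Growth -/

theorem subexpGrowth_of_surjective {A B : Type*} [Group A] [Group B] (f : A →* B)
    (hf : Function.Surjective f) (h : SubexpGrowth A) : SubexpGrowth B := by
  classical
  intro S hS ε hε
  obtain ⟨S', hS', hfS⟩ : ∃ S' : Set A, S'.Finite ∧ f '' S' = S := by
    refine ⟨Function.surjInv hf '' S, hS.image _, ?_⟩
    rw [Set.image_image]
    simp [Function.surjInv_eq hf]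
  obtain ⟨C, hC⟩ := h S' hS' ε hε
  refine ⟨C, fun k => le_trans ?_ (hC k)⟩
  rw [← hfS, ← Set.image_pow]
  have hfin : (S' ^ k).Finite := by
    induction k with
    | zero => simp
    | succ k ih => rw [pow_succ]; exact ih.mul hS'
  exact_mod_cast Set.ncard_image_le hfin

/-! ### Composition with linear maps -/

section
variable {n : ℕ} {X : Type} [TopologicalSpace X] [ChartedSpace (Cm n) X]
  {E : Type} [TopologicalSpace E] {p : E → X}
  {w : Chart n X → Cm n → Matrix (Fin n) (Fin n) ℂ}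

theorem HolB.linear {N q : ℕ} {F : E → Cm N} {B : ℝ} (hF : HolB p w F B) (L : Cm N →ₗ[ℂ] Cm q) :
    ∃ B', HolB p w (fun y => L (F y)) B' := by
  set L' : Cm N →L[ℂ] Cm q := LinearMap.toContinuousLinearMap L with hL'
  have hLL : ∀ v, L v = L' v := fun v => rfl
  refine ⟨‖L'‖ ^ 2 * B, fun y e he => ?_⟩
  obtain ⟨f, h1, h2, h3⟩ := hF y e he
  refine ⟨fun z => L' (f z), ?_, ?_, ?_⟩
  · filter_upwards [h1] with y' hy'
    rw [hy', hLL]
  · filter_upwards [h2] with z hz
    exact L'.differentiableAt.comp z hz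
  · intro v
    have h4 : fderiv ℂ (fun z => L' (f z)) (e (p y)) = L'.comp (fderiv ℂ f (e (p y))) :=
      L'.hasFDerivAt.comp (e (p y)) h2.self_of_nhds.hasFDerivAt |>.fderiv
    rw [h4, ContinuousLinearMap.comp_apply]
    have h5 := L'.le_opNorm (fderiv ℂ f (e (p y)) v)
    calc ‖L' (fderiv ℂ f (e (p y)) v)‖ ^ 2 ≤ (‖L'‖ * ‖fderiv ℂ f (e (p y)) v‖) ^ 2 := by
          gcongr
      _ = ‖L'‖ ^ 2 * ‖fderiv ℂ f (e (p y)) v‖ ^ 2 := by ring
      _ ≤ ‖L'‖ ^ 2 * (B * (∑ j, ∑ k, w e (e (p y)) j k * v j * conj (v k)).re) := by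
          gcongr
          exact h3 v
      _ = _ := by ring

theorem Reg.linear {N q : ℕ} {F : E → Cm N} {B : ℝ} (hp : IsCoveringMap p) (hF : HolB p w F B)
    (L : Cm N →ₗ[ℂ] Cm q) (hL : Function.Surjective L) {y : E} (hr : Reg (n := n) p F y) :
    Reg (n := n) p (fun y => L (F y)) y := by
  intro e f he hf
  set L' : Cm N →L[ℂ] Cm q := LinearMap.toContinuousLinearMap L with hL'
  have hLL : ∀ v, L v = L' v := fun v => rfl
  obtain ⟨f', h1, h2, -⟩ := hF y e he
  have hmap : map (fun y' => e (p y')) (𝓝 y) = 𝓝 (e (p y)) := by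
    rw [← e.map_nhds_eq he.2, ← hp.isLocalHomeomorph.map_nhds_eq y, Filter.map_map]
    rfl
  have h3 : f =ᶠ[𝓝 (e (p y))] fun z => L' (f' z) := by
    rw [Filter.EventuallyEq, ← hmap, eventually_map]
    filter_upwards [hf, h1] with y' a b
    rw [← a, b, hLL]
  rw [h3.fderiv_eq]
  have h4 : fderiv ℂ (fun z => L' (f' z)) (e (p y)) = L'.comp (fderiv ℂ f' (e (p y))) :=
    L'.hasFDerivAt.comp (e (p y)) h2.self_of_nhds.hasFDerivAt |>.fderiv
  rw [h4]
  have h5 := hr e f' he h1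
  intro t
  obtain ⟨u, hu⟩ := hL t
  obtain ⟨v, hv⟩ := h5 u
  exact ⟨v, by rw [ContinuousLinearMap.comp_apply, hv, ← hLL, hu]⟩

end

/-! ### Assembly -/

section
variable {n : ℕ} {X : Type} [TopologicalSpace X] [T2Space X] [CompactSpace X] [ConnectedSpace X]
  [ChartedSpace (Cm n) X] [IsManifold 𝓘(ℂ, Cm n) ω X]
  {w : Chart n X → Cm n → Matrix (Fin n) (Fin n) ℂ}
  {E Γ : Type} [TopologicalSpace E] [SimplyConnectedSpace E] [Group Γ] [MulAction Γ E]
  {p : E → X} {G K : Subgroup Γ} {N : ℕ} {F : E → Cm N} {c : Γ → Cm N}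

/-- the kernel of the periods is finitely generated (Milnor) -/
theorem fg_of_alb (hfg : Group.FG Γ) (hAl : Alb p w G K F c) (hgr : SubexpGrowth Γ) :
    Group.FG K := by
  classical
  have hadd := alb_add hAl
  obtain ⟨c', hc', hker⟩ := H731.Lat.latStmt Γ G K N c hadd hAl.mem hAl.disc hAl.span
  have hKG : K ≤ G := fun g hg => ((hAl.mem g).1 hg).1
  have hGfg : G.FG := by
    have := hAl.fi
    rw [← Group.fg_iff_subgroup_fg]
    exact Subgroup.fg_of_index_ne_zero _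
  have hKfg : K.FG := by
    refine H730.Mil.milnor_list hgr G hGfg (Finset.univ : Finset (Fin (2 * N)))
      (fun i g => if h : g ∈ G then Multiplicative.toAdd (c' ⟨g, h⟩) i else 0) ?_ K ?_
    · intro i _ g hg h hh
      simp only [dif_pos hg, dif_pos hh, dif_pos (G.mul_mem hg hh)]
      have h1 : c' (⟨g * h, G.mul_mem hg hh⟩ : G) = c' ⟨g, hg⟩ * c' ⟨h, hh⟩ := by
        rw [← map_mul]; rfl
      rw [h1]
      rfl
    · intro g
      constructor
      · intro hg
        refine ⟨hKG hg, fun i _ => ?_⟩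
        have h1 : (⟨g, hKG hg⟩ : G) ∈ c'.ker := by
          rw [hker]; exact hg
        rw [MonoidHom.mem_ker] at h1
        simp only [dif_pos (hKG hg), h1]
        rfl
      · rintro ⟨hg, h1⟩
        have h2 : (⟨g, hg⟩ : G) ∈ c'.ker := by
          rw [MonoidHom.mem_ker]
          refine Multiplicative.toAdd.injective (funext fun i => ?_)
          have := h1 i (Finset.mem_univ i)
          simp only [dif_pos hg] at this
          exact this
        rw [hker] at h2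
        exact h2
  exact (Group.fg_iff_subgroup_fg K).2 hKfg

/-- the kernel of the periods is not virtually indicable (Alb.max) -/
theorem nvi_of_alb (hw : IsKahler w) (hp : IsGalois Γ p) (hfg : Group.FG Γ)
    (hAl : Alb p w G K F c) (hreg : ∃ y, Reg (n := n) p F y) (hgr : SubexpGrowth Γ)
    (hKf : Group.FG K) : ¬ VirtIndicable K := by
  intro hv
  have hadd := alb_add hAl
  obtain ⟨G₂, hG₂, hle, f, B, hf, k, hk, hk0, hfk⟩ :=
    H409.grpStmt Γ hgr hfg G K hAl.fi N c hadd hAl.mem hAl.disc hAl.span hKf hv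
  have hsym := stkStmt n X w hw E Γ p hp N F hAl.hol hreg G₂ c hG₂
    (fun g hg y => hAl.equiv g (hle hg) y) f B hf
  have h1 := hAl.max G₂ hG₂ hle (fun g => f g - B (c g) (c g) / 2) (by
    intro g hg h hh
    show f (g * h) - B (c (g * h)) (c (g * h)) / 2 = _
    rw [hf g hg h hh, hadd g (hle hg) h (hle hh)]
    simp only [map_add, LinearMap.add_apply]
    rw [hsym (c h) (c g)]
    ring) k hk hk0
  apply hfk
  rw [hk0] at h1
  simpa using h1

theorem latChar_of_alb (hAl : Alb p w G K F c) : LatChar G N (fun g : G => c g) where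
  add g h := alb_add hAl g g.2 h h.2
  disc R := by
    refine (hAl.disc R).subset ?_
    rintro v ⟨⟨g, rfl⟩, hv⟩
    exact ⟨⟨g, g.2, rfl⟩, hv⟩
  span := by
    rw [← hAl.span]
    congr 1
    ext v
    constructor
    · rintro ⟨g, rfl⟩
      exact ⟨g, g.2, rfl⟩
    · rintro ⟨g, hg, rfl⟩
      exact ⟨⟨g, hg⟩, rfl⟩

end

/-- **Group assembly.** -/
theorem mainSCD_of (hA : AlbUStmt) (hM : MFStmt) (hCv : CovStmt) (hCo : CoreStmt) : MainSCD := by
  intro n N X _ _ _ _ _ _ ι _ D hD w hw E Γ _ _ _ _ p hp hgr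
  obtain ⟨_, _, _, hfg, -⟩ := H639.V.v15Stmt n X w hw E Γ p hp
  obtain ⟨G, K, q, F, c, hAl, hreg⟩ := hA n N X ι D hD w hw E Γ p hp hgr
  have hadd := alb_add hAl
  by_cases hK : Finite K
  · exact H409.finStmt Γ hfg G K hAl.fi q c hadd hAl.mem hK
  exfalso
  rw [not_finite_iff_infinite] at hK
  have hKf := fg_of_alb hfg hAl hgr
  have hnvi := nvi_of_alb hw hp hfg hAl hreg hgr hKf
  have hKG : K ≤ G := fun g hg => ((hAl.mem g).1 hg).1
  let e : K.subgroupOf G ≃* K := Subgroup.subgroupOfEquivOfLe hKG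
  have hlat := latChar_of_alb hAl
  obtain ⟨M, hMn, q₁, L, c₁, K₁, hL, hc₁, hN⟩ := normStmt G q (fun g : G => c g) hlat
    (K.subgroupOf G) (fun g => by
      rw [Subgroup.mem_subgroupOf, hAl.mem]
      exact ⟨fun h => h.2, fun h => ⟨g.2, h⟩⟩)
    (Group.fg_of_surjective (f := e.symm.toMonoidHom) e.symm.surjective)
    (Infinite.of_injective e.symm e.symm.injective)
    (fun h => hnvi (H465.V19.virtIndicable_of_equiv e h))
  obtain ⟨X₁, _, _, _, _, _, _, D₁, hD₁, w₁, hw₁, E₁, _, _, _, p₁, hp₁, π, hπ, hπs, hπe, hF₁⟩ :=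
    hCv n N X ι D hD w hw E Γ p hp G hAl.fi M hMn
  obtain ⟨B, hB⟩ := hAl.hol
  obtain ⟨B', hB'⟩ := HolB.linear hB L
  have hc1 : c 1 = 0 := by
    have := hadd 1 G.one_mem 1 G.one_mem
    rw [one_mul] at this
    exact (left_eq_add.1 this)
  obtain ⟨F₁, hFF, hF₁B, hF₁r⟩ := hF₁ q₁ (fun y => L (F y)) B' hB' (by
    intro m hm y
    have h1 : (m : G ⧸ M) = ((1 : G) : G ⧸ M) := by
      rw [QuotientGroup.eq]
      simpa using hm
    have h2 := hc₁ m
    rw [h1, hc₁ 1] at h2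
    show L (F ((m : Γ) • y)) = L (F y)
    rw [hAl.equiv m m.2, map_add, ← h2]
    simp [hc1])
  have heq : ∀ (g : G ⧸ M) (y : E₁), F₁ (g • y) = F₁ y + c₁ g := by
    intro g y
    obtain ⟨g, rfl⟩ := QuotientGroup.mk_surjective g
    obtain ⟨y, rfl⟩ := hπs y
    rw [← hπe, hFF, hFF, hAl.equiv g g.2, map_add, ← hc₁]
  have hreg₁ : ∃ y, Reg (n := n) p₁ F₁ y := by
    obtain ⟨y, hy⟩ := hreg
    exact ⟨π y, hF₁r y (Reg.linear hp.cov hB L hL hy)⟩
  have hgc := hM n N X₁ ι D₁ hD₁ w₁ hw₁ E₁ (G ⧸ M) p₁ hp₁ q₁ F₁ c₁ ⟨B', hF₁B⟩ heq hN.lat hreg₁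
  have hgr₁ : SubexpGrowth (G ⧸ M) :=
    subexpGrowth_of_surjective (QuotientGroup.mk' M) (QuotientGroup.mk'_surjective M)
      (H977.subexpGrowth_of_injective G.subtype G.subtype_injective hgr)
  exact hCo n N X₁ ι D₁ hD₁ w₁ hw₁ E₁ (G ⧸ M) p₁ hp₁ hgr₁ q₁ F₁ c₁ K₁ ⟨B', hF₁B⟩ heq hreg₁ hgc hN

/-- the fundamental group -/
theorem mainPiD_of (h : MainSCD) : MainPiD := by
  intro n N X _ _ _ _ _ _ ι _ D hD w hw x hgr
  obtain ⟨Y, Γ, tY, hsc, gΓ, aΓ, π, e, hG⟩ := H977.exists_uc (n := n) X x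
  exact H977.virtuallyAbelian_of_injective e.toMonoidHom e.injective
    (h n N X ι D hD w hw Y Γ π hG
      (H977.subexpGrowth_of_injective e.symm.toMonoidHom e.symm.injective hgr))

end Vale.Agent.P284.H213.Grp
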