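import Vale.Agent.P284.H213.Grp.Asm
import Vale.Agent.P284.H409.RkF
import Vale.Agent.P284.H894.F.Defs

/-!
# P284 (helper213), final group assembly: the rank

The abelian subgroup of finite index has at most `2 n` generators.
-/

open scoped Manifold ContDiff Topology Pointwise ComplexConjugate ComplexOrder
open Filter Set Metric MeasureTheory

noncomputable section

namespace Vale.Agent.P284.H213.Grp

open Vale.Agent.P272.K Vale.Agent.P284.H248 Vale.Agent.P284.H894 Vale.Agent.P284.H894.G
  Vale.Agent.P284.H894.V Vale.Agent.P284.H894.W Vale.Agent.P284.H998 Vale.Agent.P284.H221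
  Vale.Agent.P284.H894.F

theorem virtAbelianRank_of_equiv {A B : Type*} [Group A] [Group B] (e : A ≃* B) {m : ℕ}
    (h : VirtAbelianRank B m) : VirtAbelianRank A m := by
  classical
  obtain ⟨H, hH, hc, S, hS, hSH⟩ := h
  refine ⟨H.comap e.toMonoidHom, ?_, ?_, S.image e.symm, Finset.card_image_le.trans hS, ?_⟩
  · refine ⟨?_⟩
    rw [Subgroup.index_comap_of_surjective H e.surjective]
    exact hH.index_ne_zero
  · intro a ha b hb
    refine e.injective ?_
    rw [map_mul, map_mul]
    exact hc _ ha _ hb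
  · rw [Finset.coe_image]
    have h1 : Subgroup.map e.symm.toMonoidHom (Subgroup.closure (S : Set B)) =
        Subgroup.closure ((e.symm : B → A) '' (S : Set B)) :=
      MonoidHom.map_closure e.symm.toMonoidHom _
    rw [← h1, hSH]
    ext x
    constructor
    · rintro ⟨y, hy, rfl⟩
      show e (e.symm y) ∈ H
      rwa [e.apply_symm_apply]
    · intro hx
      exact ⟨e x, hx, e.symm_apply_apply x⟩

/-- the rank of the Albanese map is at most `n` -/
theorem le_of_reg {n : ℕ} {X : Type} [TopologicalSpace X] [ChartedSpace (Cm n) X]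
    {E : Type} [TopologicalSpace E] {p : E → X}
    {w : Chart n X → Cm n → Matrix (Fin n) (Fin n) ℂ} {q : ℕ} {F : E → Cm q} {B : ℝ}
    (hF : HolB p w F B) {y : E} (hr : Reg (n := n) p F y) : q ≤ n := by
  have hat : At (chartAt (Cm n) (p y)) (p y) := ⟨chart_mem_atlas _ _, mem_chart_source _ _⟩
  obtain ⟨f, h1, -, -⟩ := hF y (chartAt (Cm n) (p y)) hat
  have h2 := hr (chartAt (Cm n) (p y)) f hat h1
  have := LinearMap.finrank_le_finrank_of_surjective
    (f := (fderiv ℂ f (chartAt (Cm n) (p y) (p y))).toLinearMap) h2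
  simpa using this

/-- the theorem for the group of a simply connected covering, with the rank -/
def MainSCR : Prop :=
  ∀ (n N : ℕ) (X : Type) [TopologicalSpace X] [T2Space X] [CompactSpace X] [ConnectedSpace X]
    [ChartedSpace (Cm n) X] [IsManifold 𝓘(ℂ, Cm n) ω X] (ι : Type) [Fintype ι] (_ : PJ n X ι)
    (_ : Dom N n X) (w : Chart n X → Cm n → Matrix (Fin n) (Fin n) ℂ), IsKahler w →
    ∀ (E Γ : Type) [TopologicalSpace E] [SimplyConnectedSpace E] [Group Γ] [MulAction Γ E]
      (p : E → X), IsGalois Γ p → SubexpGrowth Γ → VirtAbelianRank Γ (2 * n)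

/-- the theorem for the fundamental group, with the rank -/
def MainPiR : Prop :=
  ∀ (n N : ℕ) (X : Type) [TopologicalSpace X] [T2Space X] [CompactSpace X] [ConnectedSpace X]
    [ChartedSpace (Cm n) X] [IsManifold 𝓘(ℂ, Cm n) ω X] (ι : Type) [Fintype ι] (_ : PJ n X ι)
    (_ : Dom N n X) (w : Chart n X → Cm n → Matrix (Fin n) (Fin n) ℂ), IsKahler w →
    ∀ x : X, SubexpGrowth (FundamentalGroup X x) → VirtAbelianRank (FundamentalGroup X x) (2 * n)

theorem mainSCR_of' (hA : AlbUStmt) (h : MainSCD) : MainSCR := by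
  intro n N X _ _ _ _ _ _ ι _ D hD w hw E Γ _ _ _ _ p hp hgr
  obtain ⟨_, _, _, hfg, -⟩ := H639.V.v15Stmt n X w hw E Γ p hp
  obtain ⟨G, K, q, F, c, hAl, y, hreg⟩ := hA n N X ι D hD w hw E Γ p hp hgr
  have hva := h n N X ι D hD w hw E Γ p hp hgr
  have hKf := fg_of_alb hfg hAl hgr
  have hK : Finite K := by
    by_contra hK
    rw [not_finite_iff_infinite] at hK
    obtain ⟨H, hH, hc⟩ := H977.virtuallyAbelian_of_injective K.subtype K.subtype_injective hva
    exact nvi_of_alb hw hp hfg hAl ⟨y, hreg⟩ hgr hKf (virtInd_of_comm H hH hc)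
  obtain ⟨B, hB⟩ := hAl.hol
  exact (H409.A.finR (MonoidHom.id Γ) Function.surjective_id hfg G K hAl.fi q c (alb_add hAl)
    hAl.mem hAl.disc hAl.span (by rw [Subgroup.map_id]; exact hK)).mono
      (Nat.mul_le_mul_left 2 (le_of_reg hB hreg))

theorem mainSCR_of (hA : AlbUStmt) (hM : MFStmt) (hCv : CovStmt) (hCo : CoreStmt) : MainSCR :=
  mainSCR_of' hA (mainSCD_of hA hM hCv hCo)

theorem mainPiR_of' (h : MainSCR) : MainPiR := by
  intro n N X _ _ _ _ _ _ ι _ D hD w hw x hgr
  obtain ⟨Y, Γ, tY, hsc, gΓ, aΓ, π, e, hG⟩ := H977.exists_uc (n := n) X x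
  exact virtAbelianRank_of_equiv e
    (h n N X ι D hD w hw Y Γ π hG
      (H977.subexpGrowth_of_injective e.symm.toMonoidHom e.symm.injective hgr))

/-- the theorem for the fundamental group, with the rank, from the modules -/
theorem mainPiR_of (hA : AlbUStmt) (hM : MFStmt) (hCv : CovStmt) (hCo : CoreStmt) : MainPiR :=
  mainPiR_of' (mainSCR_of hA hM hCv hCo)

end Vale.Agent.P284.H213.Grp
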