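import Vale.Agent.P284.H213.Grp.AsmS
import Vale.Agent.P284.H885.Cov

/-!
# P284 (helper213): `CovStmt` from the module COV of helper885
-/

open scoped Manifold ContDiff Topology Pointwise ComplexConjugate ComplexOrder
open Filter Set Metric MeasureTheory

noncomputable section

namespace Vale.Agent.P284.H213.Grp

open Vale.Agent.P272.K Vale.Agent.P284.H248 Vale.Agent.P284.H894 Vale.Agent.P284.H894.G
  Vale.Agent.P284.H894.V Vale.Agent.P284.H894.W Vale.Agent.P284.H998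

/-- the two definitions of `Dom` agree -/
theorem dom_iff {N n : ℕ} {X : Type} [TopologicalSpace X] [ChartedSpace (Cm n) X]
    [IsManifold 𝓘(ℂ, Cm n) ω X] : H885.Dom N n X ↔ H221.Dom N n X := by
  constructor
  · intro h U hU hne
    obtain ⟨Φ, hΦ, ζ, h1, h2⟩ := h U hU hne
    have h3 : MDifferentiableAt 𝓘(ℂ, Cm N) 𝓘(ℂ, Cm n) Φ ζ := (hΦ.mdifferentiable (by simp)) ζ
    have he : At (chartAt (Cm n) (Φ ζ)) (Φ ζ) := ⟨chart_mem_atlas _ _, mem_chart_source _ _⟩
    exact ⟨Φ, hΦ, ζ, h1, _, he, (H885.surj_mfderiv_iff h3 he).1 h2⟩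
  · intro h U hU hne
    obtain ⟨Φ, hΦ, ζ, h1, e, he, h2⟩ := h U hU hne
    have h3 : MDifferentiableAt 𝓘(ℂ, Cm N) 𝓘(ℂ, Cm n) Φ ζ := (hΦ.mdifferentiable (by simp)) ζ
    exact ⟨Φ, hΦ, ζ, h1, (H885.surj_mfderiv_iff h3 he).2 h2⟩

/-- **COV** in the form of `AsmS.lean` -/
theorem covStmt : CovStmt := by
  intro n N X _ _ _ _ _ _ ι _ D hD w hw E Γ _ _ _ _ p hp G hG M hM
  obtain ⟨Y, _, _, _, _, _, _, q, π, hπ, hπc, hq, hπq⟩ := H885.exists_quo n X E Γ p hp G hG
  refine ⟨Y, inferInstance, inferInstance, inferInstance, inferInstance, inferInstance,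
    inferInstance, hπ.pj D, dom_iff.1 ((dom_iff.2 hD).etale hπ hπc), H885.pull π w,
    hπ.isKahler hw, H885.Quo E M, inferInstance, H885.connected_quo M, inferInstance,
    H885.toX hq M, H885.isGalois_toX hq M, H885.mk M, (H885.mk_isQuotientMap M).continuous,
    H885.mk_surjective M, fun g y => rfl, ?_⟩
  intro q' F B hF hFM
  refine ⟨H885.desc M F hFM, fun y => rfl, H885.holB_desc hq M hFM (hπ.holB hπq hF), fun y hy => ?_⟩
  exact (H885.reg_desc hq M hFM y).2 ((hπ.reg_iff hπq).2 hy)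

end Vale.Agent.P284.H213.Grp
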